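import Vale.Agent.P088.R2.H871.INF.RetB
import Vale.Agent.P088.R2.H31.EP.Wgt

/-!
# P088, stage 3, Z-INF: the radial retraction in rate units
-/

open Set Filter
open scoped ContDiff Topology

noncomputable section

namespace Vale.Agent.P088.R2.H871.INF

open Vale.Agent.P088.LR Vale.Agent.P088.HY Vale.Agent.P088.HY.T3 Vale.Agent.P088.HY.T4
open Vale.Agent.P088.R2.H31.EP (lv)

variable {n : ℕ} {σ R : ℝ}

/-- **The retraction, rate units.** -/
def rP (n : ℕ) (σ R : ℝ) (x : V n) : V n := R • rt n σ (R⁻¹ • x)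

/-- The constants of the derivatives of the retraction. -/
def Cr (n : ℕ) : ℕ → ℝ := if h : 1 ≤ n then (rt_bd h).choose else fun _ => 1

theorem Cr_one (n j : ℕ) : 1 ≤ Cr n j := by
  unfold Cr
  split_ifs with h
  · exact (rt_bd h).choose_spec.1 j
  · exact le_refl _

theorem rt_Cr (hn : 1 ≤ n) (hσ : 0 < σ) (hσ1 : σ ≤ 1 / 10) {j : ℕ} (hj : 1 ≤ j) (y : V n) :
    ‖iteratedFDeriv ℝ j (rt n σ) y‖ ≤ Cr n j := by
  unfold Cr
  rw [dif_pos hn]
  exact (rt_bd hn).choose_spec.2 σ hσ hσ1 j hj y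

/-- The properties of the retraction (`P = id` for `gy ≤ 3.02`, `gy P = 3.05` for `gy ≥ 3.08`). -/
structure RetF (n : ℕ) (σ R : ℝ) (P : V n → V n) : Prop where
  sm : ContDiff ℝ ∞ P
  id : ∀ x, gy n σ (R⁻¹ • x) ≤ 302 / 100 → P x = x
  lo : ∀ x, 3 ≤ gy n σ (R⁻¹ • x) → 3 ≤ gy n σ (R⁻¹ • P x)
  hi : ∀ x, gy n σ (R⁻¹ • P x) ≤ 31 / 10
  top : ∀ x, 308 / 100 ≤ gy n σ (R⁻¹ • x) → gy n σ (R⁻¹ • P x) = 305 / 100
  bd : ∀ j, 1 ≤ j → ∀ x, ‖iteratedFDeriv ℝ j P x‖ ≤ Cr n j * R * R⁻¹ ^ j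
  bdd : ∃ C, ∀ x, ‖P x‖ ≤ C

theorem rP_unit (hR : 0 < R) (x : V n) : R⁻¹ • rP n σ R x = rt n σ (R⁻¹ • x) := by
  unfold rP
  rw [smul_smul, inv_mul_cancel₀ hR.ne', one_smul]

theorem retF (hn : 1 ≤ n) (hσ : 0 < σ) (hσ1 : σ ≤ 1 / 10) (hR : 0 < R) :
    RetF n σ R (rP n σ R) where
  sm := ((rt_sm hn hσ).comp (contDiff_const_smul R⁻¹)).const_smul R
  id x h := by
    unfold rP
    rw [rt_id h, smul_smul, mul_inv_cancel₀ hR.ne', one_smul]
  lo x h := by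
    rw [rP_unit hR]
    exact rt_lo hn hσ h
  hi x := by
    rw [rP_unit hR]
    exact rt_hi hn hσ _
  top x h := by
    rw [rP_unit hR]
    exact rt_top hn hσ h
  bd j hj x := by
    have hj' : (j : ℕ∞ω) ≤ ∞ := by exact_mod_cast le_top
    have c1 : ContDiff ℝ ∞ fun x : V n => rt n σ (R⁻¹ • x) :=
      (rt_sm hn hσ).comp (contDiff_const_smul R⁻¹)
    have e : rP n σ R = fun x => R • rt n σ (R⁻¹ • x) := rfl
    rw [e, iteratedFDeriv_const_smul_apply' ((c1.of_le hj').contDiffAt), norm_smul,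
      Real.norm_eq_abs, abs_of_pos hR]
    have h1 := it_sc (rt n σ) (inv_pos.2 hR) j x
    have h2 := rt_Cr hn hσ hσ1 hj (R⁻¹ • x)
    have h3 : (0 : ℝ) ≤ R⁻¹ ^ j := by positivity
    calc R * ‖iteratedFDeriv ℝ j (fun x => rt n σ (R⁻¹ • x)) x‖ ≤ R * (Cr n j * R⁻¹ ^ j) :=
          mul_le_mul_of_nonneg_left (h1.trans (mul_le_mul_of_nonneg_right h2 h3)) hR.le
      _ = _ := by ring
  bdd := by
    refine ⟨R * (ra σ (31 / 10) + ‖yc n σ‖), fun x => ?_⟩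
    unfold rP
    rw [norm_smul, Real.norm_eq_abs, abs_of_pos hR]
    refine mul_le_mul_of_nonneg_left ?_ hR.le
    have h1 := (gy_le_iff hn hσ (by norm_num) _).1 (rt_hi hn hσ (R⁻¹ • x))
    have h2 := norm_le_en (rt n σ (R⁻¹ • x) - yc n σ)
    have h3 : rt n σ (R⁻¹ • x) = (rt n σ (R⁻¹ • x) - yc n σ) + yc n σ := by abel
    rw [h3]
    refine (norm_add_le _ _).trans ?_
    linarith

section lev

variable {P : V n → V n} {l : V n → ℝ} {kap Gs : ℝ}

/-- The field `id` of the package: for every level which is `lv` on `{gy ≥ 0}`. -/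
theorem RetF.idl (h : RetF n σ R P) (hR : 0 < R)
    (hl : ∀ x, 0 ≤ gy n σ (R⁻¹ • x) → l x = lv n σ R kap Gs x) {x : V n}
    (hx : l x ≤ Real.log (kap / R) - R * Gs + 302 / 100 * R) : P x = x := by
  refine h.id x ?_
  by_contra hc
  rw [not_le] at hc
  rw [hl x (by linarith)] at hx
  unfold lv at hx
  nlinarith

/-- The level of the image. -/
theorem RetF.lP_le (h : RetF n σ R P) (hR : 0 < R)
    (hl : ∀ x, 0 ≤ gy n σ (R⁻¹ • x) → l x = lv n σ R kap Gs x) {x : V n}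
    (hx : 3 ≤ gy n σ (R⁻¹ • x)) :
    Real.log (kap / R) - R * Gs + 3 * R ≤ l (P x) ∧
      l (P x) ≤ Real.log (kap / R) - R * Gs + 31 / 10 * R := by
  have h1 := h.lo x hx
  have h2 := h.hi x
  rw [hl (P x) (by linarith)]
  unfold lv
  constructor <;> nlinarith

theorem RetF.lP_top (h : RetF n σ R P)
    (hl : ∀ x, 0 ≤ gy n σ (R⁻¹ • x) → l x = lv n σ R kap Gs x) {x : V n}
    (hx : 308 / 100 ≤ gy n σ (R⁻¹ • x)) :
    l (P x) = Real.log (kap / R) - R * Gs + 305 / 100 * R := by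
  have h1 := h.top x hx
  rw [hl (P x) (by linarith)]
  unfold lv
  rw [h1]
  ring

theorem gyR_cont (n : ℕ) (σ R : ℝ) : Continuous fun x : V n => gy n σ (R⁻¹ • x) :=
  (gy_sm n σ).continuous.comp (continuous_const_smul R⁻¹)

/-- The level of the image is locally constant at the top. -/
theorem RetF.lP_near (h : RetF n σ R P)
    (hl : ∀ x, 0 ≤ gy n σ (R⁻¹ • x) → l x = lv n σ R kap Gs x) {x : V n}
    (hx : 308 / 100 < gy n σ (R⁻¹ • x)) :
    (fun x => l (P x)) =ᶠ[𝓝 x] fun _ => Real.log (kap / R) - R * Gs + 305 / 100 * R := by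
  filter_upwards [(isOpen_lt continuous_const (gyR_cont n σ R)).mem_nhds hx] with w hw
  exact h.lP_top hl (le_of_lt hw)

theorem RetF.fd_top (h : RetF n σ R P)
    (hl : ∀ x, 0 ≤ gy n σ (R⁻¹ • x) → l x = lv n σ R kap Gs x) {x : V n}
    (hx : 308 / 100 < gy n σ (R⁻¹ • x)) : fderiv ℝ (fun x => l (P x)) x = 0 := by
  rw [(h.lP_near hl hx).fderiv_eq]
  simp

theorem RetF.it_top (h : RetF n σ R P)
    (hl : ∀ x, 0 ≤ gy n σ (R⁻¹ • x) → l x = lv n σ R kap Gs x) {x : V n}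
    (hx : 308 / 100 < gy n σ (R⁻¹ • x)) {j : ℕ} (hj : 1 ≤ j) :
    iteratedFDeriv ℝ j (fun x => l (P x)) x = 0 := by
  rw [((h.lP_near hl hx).iteratedFDeriv ℝ j).eq_of_nhds, iteratedFDeriv_const_of_ne (by omega)]
  rfl

end lev

/-! ## Both variables -/

/-- The retraction in both variables. -/
def P2 (P : V n → V n) (z : VV n) : VV n := (P z.1, P z.2)

theorem P2_sm {P : V n → V n} (h : ContDiff ℝ ∞ P) : ContDiff ℝ ∞ (P2 P) :=
  (h.comp contDiff_fst).prodMk (h.comp contDiff_snd)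

theorem P2_bd {P : V n → V n} (h : RetF n σ R P) {j : ℕ} (hj : 1 ≤ j) (z : VV n) :
    ‖iteratedFDeriv ℝ j (P2 P) z‖ ≤ Cr n j * R * R⁻¹ ^ j := by
  have hj' : (j : ℕ∞ω) ≤ ∞ := by exact_mod_cast le_top
  have h1 : ‖iteratedFDeriv ℝ j (fun z : VV n => P z.1) z‖ ≤ Cr n j * R * R⁻¹ ^ j := by
    have := (ContinuousLinearMap.fst ℝ (V n) (V n)).iteratedFDeriv_comp_right h.sm z hj'
    have e : (fun z : VV n => P z.1) = P ∘ (ContinuousLinearMap.fst ℝ (V n) (V n)) := rfl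
    rw [e, this]
    refine (ContinuousMultilinearMap.norm_compContinuousLinearMap_le _ _).trans ?_
    rw [Finset.prod_const, Finset.card_univ, Fintype.card_fin]
    have h2 : ‖ContinuousLinearMap.fst ℝ (V n) (V n)‖ ^ j ≤ 1 :=
      pow_le_one₀ (norm_nonneg _) (ContinuousLinearMap.norm_fst_le ..)
    have h3 := h.bd j hj z.1
    calc _ ≤ ‖iteratedFDeriv ℝ j P z.1‖ * 1 := mul_le_mul_of_nonneg_left h2 (norm_nonneg _)
      _ ≤ _ := by rw [mul_one]; exact h3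
  have h1' : ‖iteratedFDeriv ℝ j (fun z : VV n => P z.2) z‖ ≤ Cr n j * R * R⁻¹ ^ j := by
    have := (ContinuousLinearMap.snd ℝ (V n) (V n)).iteratedFDeriv_comp_right h.sm z hj'
    have e : (fun z : VV n => P z.2) = P ∘ (ContinuousLinearMap.snd ℝ (V n) (V n)) := rfl
    rw [e, this]
    refine (ContinuousMultilinearMap.norm_compContinuousLinearMap_le _ _).trans ?_
    rw [Finset.prod_const, Finset.card_univ, Fintype.card_fin]
    have h2 : ‖ContinuousLinearMap.snd ℝ (V n) (V n)‖ ^ j ≤ 1 :=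
      pow_le_one₀ (norm_nonneg _) (ContinuousLinearMap.norm_snd_le ..)
    have h3 := h.bd j hj z.2
    calc _ ≤ ‖iteratedFDeriv ℝ j P z.2‖ * 1 := mul_le_mul_of_nonneg_left h2 (norm_nonneg _)
      _ ≤ _ := by rw [mul_one]; exact h3
  have h4 : ‖iteratedFDeriv ℝ j (P2 P) z‖ =
      max ‖iteratedFDeriv ℝ j (fun z : VV n => P z.1) z‖
        ‖iteratedFDeriv ℝ j (fun z : VV n => P z.2) z‖ := by
    have := iteratedFDeriv_prodMk (𝕜 := ℝ) (f := fun z : VV n => P z.1)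
      (g := fun z : VV n => P z.2) (x := z) (i := j)
      (((h.sm.comp contDiff_fst).of_le hj').contDiffAt)
      (((h.sm.comp contDiff_snd).of_le hj').contDiffAt) le_rfl
    have e : P2 P = fun z : VV n => (P z.1, P z.2) := rfl
    rw [e, this]
    exact ContinuousMultilinearMap.opNorm_prod _ _
  rw [h4]
  exact max_le h1 h1'

/-- **Compositions with the retraction.** -/
theorem comp_bd {P : V n → V n} (h : RetF n σ R P) (hR : 1 ≤ R) {G : Type*}
    [NormedAddCommGroup G] [NormedSpace ℝ G] {F : VV n → G} (hF : ContDiff ℝ ∞ F) (j : ℕ)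
    (z : VV n) {M : ℝ} (hM : ∀ i ≤ j, ‖iteratedFDeriv ℝ i F (P2 P z)‖ ≤ M) :
    ‖iteratedFDeriv ℝ j (fun z => F (P2 P z)) z‖ ≤
      j.factorial * M * (∑ i ∈ Finset.range (j + 1), Cr n i) ^ j := by
  refine norm_iteratedFDeriv_comp_le (g := F) (f := P2 P) (N := ∞) hF (P2_sm h.sm)
    (by exact_mod_cast le_top) z hM ?_
  intro i hi hij
  refine (P2_bd h hi z).trans ?_
  have hR0 : 0 < R := zero_lt_one.trans_le hR
  have h1 : R * R⁻¹ ^ i ≤ 1 := by
    have h2 : R⁻¹ ≤ 1 := inv_le_one_of_one_le₀ hR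
    calc R * R⁻¹ ^ i ≤ R * R⁻¹ ^ 1 :=
          mul_le_mul_of_nonneg_left (pow_le_pow_of_le_one (inv_nonneg.2 hR0.le) h2 hi) hR0.le
      _ = 1 := by rw [pow_one, mul_inv_cancel₀ hR0.ne']
  have h3 : Cr n i ≤ ∑ k ∈ Finset.range (j + 1), Cr n k :=
    Finset.single_le_sum (f := fun k => Cr n k) (fun k _ => zero_le_one.trans (Cr_one n k))
      (Finset.mem_range.2 (by omega))
  have h4 : 1 ≤ ∑ k ∈ Finset.range (j + 1), Cr n k := (Cr_one n i).trans h3
  have h5 := Cr_one n i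
  calc Cr n i * R * R⁻¹ ^ i = Cr n i * (R * R⁻¹ ^ i) := by ring
    _ ≤ Cr n i * 1 := mul_le_mul_of_nonneg_left h1 (by linarith)
    _ ≤ ∑ k ∈ Finset.range (j + 1), Cr n k := by linarith
    _ = (∑ k ∈ Finset.range (j + 1), Cr n k) ^ 1 := (pow_one _).symm
    _ ≤ _ := pow_le_pow_right₀ h4 hi

end Vale.Agent.P088.R2.H871.INF
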