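import Vale.Agent.P088.R2.H404.Spec4
import Vale.Agent.P088.R2.H867.EP.Step

/-!
# P088, stage 3, Z-INF: the radial unit vector and its derivatives
-/

open Set Filter
open scoped ContDiff Topology

noncomputable section

namespace Vale.Agent.P088.R2.H871.INF

open Vale.Agent.P088.LR Vale.Agent.P088.HY Vale.Agent.P088.HY.T3 Vale.Agent.P088.HY.T4

variable {n : ℕ}

/-- The Euclidean length. -/
def en (v : V n) : ℝ := √(HY.sq v)

/-- The radial unit vector. -/
def Ur (v : V n) : V n := (en v)⁻¹ • v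

theorem sq_nn (v : V n) : 0 ≤ HY.sq v := Finset.sum_nonneg fun _ _ => sq_nonneg _

theorem sq_pos' {v : V n} (h : v ≠ 0) : 0 < HY.sq v := by
  obtain ⟨i, hi⟩ := Function.ne_iff.1 h
  refine lt_of_lt_of_le (sq_pos_of_ne_zero hi) ?_
  unfold HY.sq
  exact Finset.single_le_sum (f := fun j => v j ^ 2) (fun j _ => sq_nonneg (v j))
    (Finset.mem_univ i)

theorem sq_smul' (c : ℝ) (x : V n) : HY.sq (c • x) = c ^ 2 * HY.sq x := by
  unfold HY.sq
  rw [Finset.mul_sum]
  refine Finset.sum_congr rfl fun i _ => ?_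
  simp only [Pi.smul_apply, smul_eq_mul]
  ring

theorem sq_sm : ContDiff ℝ ∞ (HY.sq : V n → ℝ) := by
  unfold HY.sq
  exact ContDiff.sum fun i _ => (contDiff_apply ℝ ℝ i).pow 2

theorem en_nn (v : V n) : 0 ≤ en v := Real.sqrt_nonneg _

theorem en_pos {v : V n} (h : v ≠ 0) : 0 < en v := Real.sqrt_pos.2 (sq_pos' h)

theorem en_sq (v : V n) : en v ^ 2 = HY.sq v := Real.sq_sqrt (sq_nn v)

theorem en_smul {c : ℝ} (hc : 0 ≤ c) (v : V n) : en (c • v) = c * en v := by
  unfold en
  rw [sq_smul', Real.sqrt_mul (sq_nonneg c), Real.sqrt_sq hc]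

/-- The sup norm is at most the Euclidean length. -/
theorem norm_le_en (v : V n) : ‖v‖ ≤ en v := by
  refine (pi_norm_le_iff_of_nonneg (en_nn v)).2 fun i => ?_
  rw [Real.norm_eq_abs]
  refine Real.abs_le_sqrt ?_
  unfold HY.sq
  exact Finset.single_le_sum (f := fun j => v j ^ 2) (fun j _ => sq_nonneg (v j))
    (Finset.mem_univ i)

theorem Ur_smul {c : ℝ} (hc : 0 < c) (v : V n) : Ur (c • v) = Ur v := by
  unfold Ur
  rw [en_smul hc.le, smul_smul]
  congr 1
  by_cases h : en v = 0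
  · rw [h]; simp
  · field_simp

theorem Ur_sq {v : V n} (h : v ≠ 0) : HY.sq (Ur v) = 1 := by
  have h1 := en_pos h
  unfold Ur
  rw [sq_smul', ← en_sq]
  field_simp

theorem en_Ur {v : V n} (h : v ≠ 0) : en v • Ur v = v := by
  have h1 := en_pos h
  unfold Ur
  rw [smul_smul, mul_inv_cancel₀ h1.ne', one_smul]

theorem Ur_smooth : ContDiffOn ℝ ∞ (Ur : V n → V n) {v | v ≠ 0} := by
  intro v hv
  have h1 : HY.sq v ≠ 0 := (sq_pos' hv).ne'
  have h2 : ContDiffAt ℝ ∞ (en : V n → ℝ) v := (sq_sm.contDiffAt).sqrt h1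
  exact ((h2.inv (en_pos hv).ne').smul contDiffAt_id).contDiffWithinAt

theorem op_ne : IsOpen {v : V n | v ≠ 0} := isOpen_ne

theorem Ur_at {v : V n} (h : v ≠ 0) : ContDiffAt ℝ ∞ (Ur : V n → V n) v :=
  Ur_smooth.contDiffAt (op_ne.mem_nhds h)

/-- Derivatives and scaling at a point of smoothness (no hypothesis is needed). -/
theorem it_sc {F : Type*} [NormedAddCommGroup F] [NormedSpace ℝ F] (f : V n → F) {c : ℝ}
    (hc : 0 < c) (m : ℕ) (x : V n) :
    ‖iteratedFDeriv ℝ m (fun x => f (c • x)) x‖ ≤ ‖iteratedFDeriv ℝ m f (c • x)‖ * c ^ m := by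
  set g : V n ≃L[ℝ] V n := ContinuousLinearEquiv.smulLeft (Units.mk0 c hc.ne') with hg
  have e2 : ∀ x, g x = c • x := fun x => rfl
  have h : iteratedFDeriv ℝ m (f ∘ g) x =
      (iteratedFDeriv ℝ m f (g x)).compContinuousLinearMap fun _ => (g : V n →L[ℝ] V n) := by
    rw [← iteratedFDerivWithin_univ, ← iteratedFDerivWithin_univ]
    have := g.iteratedFDerivWithin_comp_right f (s := univ) uniqueDiffOn_univ (x := x)
      (by simp) m
    rw [preimage_univ] at this
    exact this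
  have e : (fun x => f (c • x)) = f ∘ g := by
    funext y
    rfl
  have h1 : ‖(g : V n →L[ℝ] V n)‖ ≤ c := by
    refine (g : V n →L[ℝ] V n).opNorm_le_bound hc.le fun y => ?_
    have : (g : V n →L[ℝ] V n) y = c • y := rfl
    rw [this, norm_smul, Real.norm_eq_abs, abs_of_nonneg hc.le]
  rw [e, h, e2]
  refine (ContinuousMultilinearMap.norm_compContinuousLinearMap_le _ _).trans ?_
  refine mul_le_mul_of_nonneg_left ?_ (norm_nonneg _)
  rw [Finset.prod_const, Finset.card_univ, Fintype.card_fin]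
  exact pow_le_pow_left₀ (norm_nonneg _) h1 m

/-- The derivatives of the radial unit vector. -/
theorem Ur_bd (n : ℕ) : ∃ C : ℕ → ℝ, (∀ j, 1 ≤ C j) ∧ ∀ j, ∀ v : V n, v ≠ 0 →
    ‖iteratedFDeriv ℝ j (Ur : V n → V n) v‖ ≤ C j * (en v)⁻¹ ^ j := by
  have key : ∀ j, ∃ C : ℝ, 1 ≤ C ∧ ∀ v : V n, HY.sq v = 1 →
      ‖iteratedFDeriv ℝ j (Ur : V n → V n) v‖ ≤ C := by
    intro j
    have hK : IsCompact {v : V n | HY.sq v = 1} := by
      refine Metric.isCompact_of_isClosed_isBounded ?_ ?_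
      · exact isClosed_eq sq_sm.continuous continuous_const
      · refine (Metric.isBounded_closedBall (x := (0 : V n)) (r := 1)).subset fun v hv => ?_
        rw [mem_closedBall_zero_iff]
        refine (norm_le_en v).trans ?_
        unfold en
        rw [show HY.sq v = 1 from hv, Real.sqrt_one]
    have hc : ContinuousOn (iteratedFDeriv ℝ j (Ur : V n → V n)) {v : V n | HY.sq v = 1} := by
      have h1 : ContinuousOn (iteratedFDerivWithin ℝ j (Ur : V n → V n) {v | v ≠ 0})
          {v | v ≠ 0} := Ur_smooth.continuousOn_iteratedFDerivWithin (by exact_mod_cast le_top)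
            op_ne.uniqueDiffOn
      have h2 : ContinuousOn (iteratedFDeriv ℝ j (Ur : V n → V n)) {v | v ≠ 0} :=
        h1.congr fun v hv => ((iteratedFDerivWithin_of_isOpen j op_ne) hv).symm
      refine h2.mono fun v hv h0 => ?_
      have h3 : HY.sq v = 1 := hv
      rw [h0] at h3
      simp [HY.sq] at h3
    obtain ⟨C, hC⟩ := hK.exists_bound_of_continuousOn hc
    exact ⟨max 1 C, le_max_left _ _, fun v hv => (hC v hv).trans (le_max_right _ _)⟩
  choose C hC1 hC using key
  refine ⟨C, hC1, fun j v hv => ?_⟩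
  have h1 := en_pos hv
  have h2 : (Ur : V n → V n) = fun x => Ur ((en v)⁻¹ • x) := by
    funext x
    rw [Ur_smul (inv_pos.2 h1)]
  have h3 := it_sc (Ur : V n → V n) (inv_pos.2 h1) j v
  rw [← h2] at h3
  refine h3.trans (mul_le_mul_of_nonneg_right (hC j _ ?_) (by positivity))
  rw [sq_smul', ← en_sq]
  field_simp

end Vale.Agent.P088.R2.H871.INF
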