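import Vale.Agent.P088.R2.H871.INF.Hom

/-!
# P088, stage 3, Z-INF: the radial retraction

Unit chart: `v = y - yc`, `yc = (1 - 1/σ) e₀`, `gy = (σ / 2) (|v|² - 1/σ²)`. The retraction `rt` is the
identity for `gy ≤ 3` and maps `{3 ≤ gy}` into `{3 ≤ gy ≤ 3.1}`, `{3.1 ≤ gy}` into `{gy = 3.05}`.
-/

open Set Filter
open scoped ContDiff Topology

noncomputable section

namespace Vale.Agent.P088.R2.H871.INF

open Vale.Agent.P088.LR Vale.Agent.P088.HY Vale.Agent.P088.HY.T3 Vale.Agent.P088.HY.T4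

variable {n : ℕ}

/-! ## The level as a function of the distance from `yc` -/

/-- The centre. -/
def yc (n : ℕ) (σ : ℝ) : V n := (1 - σ⁻¹) • e0 n

theorem sq_e0 (hn : 1 ≤ n) : HY.sq (e0 n) = 1 := by
  unfold HY.sq
  rw [Finset.sum_eq_single (⟨0, by omega⟩ : Fin n)]
  · simp [e0]
  · intro b _ hb
    have : b.val ≠ 0 := fun h => hb (Fin.ext h)
    simp [e0, this]
  · intro h
    exact absurd (Finset.mem_univ _) h

theorem sq_sub_smul (y e : V n) (c : ℝ) :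
    HY.sq (y - c • e) = HY.sq y - 2 * c * (∑ i, y i * e i) + c ^ 2 * HY.sq e := by
  unfold HY.sq
  rw [Finset.mul_sum, Finset.mul_sum, ← Finset.sum_sub_distrib, ← Finset.sum_add_distrib]
  refine Finset.sum_congr rfl fun i _ => ?_
  simp only [Pi.sub_apply, Pi.smul_apply, smul_eq_mul]
  ring

theorem gy_eq (hn : 1 ≤ n) {σ : ℝ} (hσ : 0 < σ) (y : V n) :
    gy n σ y = σ / 2 * (HY.sq (y - yc n σ) - σ⁻¹ ^ 2) := by
  unfold gy yc
  have h1 := sq_sub_smul y (e0 n) 1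
  rw [one_smul] at h1
  rw [h1, sq_sub_smul, sq_e0 hn]
  field_simp
  ring

theorem gy_sm (n : ℕ) (σ : ℝ) : ContDiff ℝ ∞ (gy n σ) := by
  have h0 : ContDiff ℝ ∞ fun y : V n => ∑ i, y i * e0 n i :=
    ContDiff.sum fun i _ => (contDiff_apply ℝ ℝ i).mul contDiff_const
  have h1 : ContDiff ℝ ∞ fun y : V n => HY.sq (y - e0 n) :=
    sq_sm.comp (contDiff_id.sub contDiff_const)
  exact (h0.sub contDiff_const).add (contDiff_const.mul h1)

/-- The radius of the level `a`. -/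
def ra (σ a : ℝ) : ℝ := √(σ⁻¹ ^ 2 + 2 * a * σ⁻¹)

variable {σ : ℝ}

theorem ra_arg (hσ : 0 < σ) {a : ℝ} (ha : 0 ≤ a) : 0 ≤ σ⁻¹ ^ 2 + 2 * a * σ⁻¹ := by positivity

theorem ra_mono (hσ : 0 < σ) {a b : ℝ} (h : a ≤ b) : ra σ a ≤ ra σ b := by
  unfold ra
  refine Real.sqrt_le_sqrt ?_
  have : 0 < σ⁻¹ := inv_pos.2 hσ
  nlinarith

theorem ra_nn (σ a : ℝ) : 0 ≤ ra σ a := Real.sqrt_nonneg _

theorem ra_sq (hσ : 0 < σ) {a : ℝ} (ha : 0 ≤ a) : ra σ a ^ 2 = σ⁻¹ ^ 2 + 2 * a * σ⁻¹ :=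
  Real.sq_sqrt (ra_arg hσ ha)

theorem ra_ge (hσ : 0 < σ) {a : ℝ} (ha : 0 ≤ a) : σ⁻¹ ≤ ra σ a := by
  refine Real.le_sqrt_of_sq_le ?_
  have : 0 < σ⁻¹ := inv_pos.2 hσ
  nlinarith [mul_nonneg ha this.le]

theorem ra_le (hσ : 0 < σ) {a : ℝ} (ha : 0 ≤ a) : ra σ a ≤ σ⁻¹ + a := by
  unfold ra
  rw [Real.sqrt_le_left (by positivity)]
  nlinarith [sq_nonneg a]

theorem gy_le_iff (hn : 1 ≤ n) (hσ : 0 < σ) {a : ℝ} (ha : 0 ≤ a) (y : V n) :
    gy n σ y ≤ a ↔ en (y - yc n σ) ≤ ra σ a := by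
  rw [gy_eq hn hσ]
  have h0 : 0 < σ⁻¹ := inv_pos.2 hσ
  have h1 : σ / 2 * (HY.sq (y - yc n σ) - σ⁻¹ ^ 2) ≤ a ↔
      HY.sq (y - yc n σ) ≤ σ⁻¹ ^ 2 + 2 * a * σ⁻¹ := by
    constructor
    · intro h
      have h2 := mul_le_mul_of_nonneg_left h (by positivity : (0 : ℝ) ≤ 2 * σ⁻¹)
      have h3 : 2 * σ⁻¹ * (σ / 2 * (HY.sq (y - yc n σ) - σ⁻¹ ^ 2)) =
          HY.sq (y - yc n σ) - σ⁻¹ ^ 2 := by field_simp
      rw [h3] at h2
      linarith
    · intro h
      have h2 : HY.sq (y - yc n σ) - σ⁻¹ ^ 2 ≤ 2 * a * σ⁻¹ := by linarith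
      have h3 := mul_le_mul_of_nonneg_left h2 (by positivity : (0 : ℝ) ≤ σ / 2)
      have h4 : σ / 2 * (2 * a * σ⁻¹) = a := by field_simp
      rw [h4] at h3
      exact h3
  rw [h1, ← ra_sq hσ ha, ← en_sq]
  exact pow_le_pow_iff_left₀ (en_nn _) (ra_nn _ _) two_ne_zero

theorem le_gy_iff (hn : 1 ≤ n) (hσ : 0 < σ) {a : ℝ} (ha : 0 ≤ a) (y : V n) :
    a ≤ gy n σ y ↔ ra σ a ≤ en (y - yc n σ) := by
  rw [gy_eq hn hσ]
  have h0 : 0 < σ⁻¹ := inv_pos.2 hσ
  have h1 : a ≤ σ / 2 * (HY.sq (y - yc n σ) - σ⁻¹ ^ 2) ↔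
      σ⁻¹ ^ 2 + 2 * a * σ⁻¹ ≤ HY.sq (y - yc n σ) := by
    constructor
    · intro h
      have h2 := mul_le_mul_of_nonneg_left h (by positivity : (0 : ℝ) ≤ 2 * σ⁻¹)
      have h3 : 2 * σ⁻¹ * (σ / 2 * (HY.sq (y - yc n σ) - σ⁻¹ ^ 2)) =
          HY.sq (y - yc n σ) - σ⁻¹ ^ 2 := by field_simp
      rw [h3] at h2
      linarith
    · intro h
      have h2 : 2 * a * σ⁻¹ ≤ HY.sq (y - yc n σ) - σ⁻¹ ^ 2 := by linarith
      have h3 := mul_le_mul_of_nonneg_left h2 (by positivity : (0 : ℝ) ≤ σ / 2)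
      have h4 : σ / 2 * (2 * a * σ⁻¹) = a := by field_simp
      rw [h4] at h3
      exact h3
  rw [h1, ← ra_sq hσ ha, ← en_sq]
  exact pow_le_pow_iff_left₀ (ra_nn _ _) (en_nn _) two_ne_zero

theorem v_ne (hn : 1 ≤ n) (hσ : 0 < σ) {y : V n} (h : 0 ≤ gy n σ y) : y - yc n σ ≠ 0 := by
  intro h0
  rw [gy_eq hn hσ, h0] at h
  have h1 : HY.sq (0 : V n) = 0 := by simp [HY.sq]
  rw [h1] at h
  have : 0 < σ⁻¹ ^ 2 := by positivity
  nlinarith

/-! ## The retraction, unit chart -/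

/-- The cut-off: `0` for `gy ≤ 3.02`, `1` for `gy ≥ 3.08`. -/
def cu (n : ℕ) (σ : ℝ) (y : V n) : ℝ := Real.smoothTransition ((gy n σ y - 302 / 100) / (6 / 100))

/-- The displacement. -/
def dis (n : ℕ) (σ : ℝ) (y : V n) : V n :=
  ra σ (305 / 100) • Ur (y - yc n σ) - (y - yc n σ)

/-- **The retraction.** -/
def rt (n : ℕ) (σ : ℝ) (y : V n) : V n := y + cu n σ y • dis n σ y

theorem cu_sm (n : ℕ) (σ : ℝ) : ContDiff ℝ ∞ (cu n σ) :=
  Real.smoothTransition.contDiff.comp (((gy_sm n σ).sub contDiff_const).div_const _)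

theorem cu_zero {y : V n} (h : gy n σ y ≤ 302 / 100) : cu n σ y = 0 :=
  Real.smoothTransition.zero_of_nonpos (by
    have : gy n σ y - 302 / 100 ≤ 0 := by linarith
    exact div_nonpos_of_nonpos_of_nonneg this (by norm_num))

theorem cu_one {y : V n} (h : 308 / 100 ≤ gy n σ y) : cu n σ y = 1 :=
  Real.smoothTransition.one_of_one_le (by
    rw [le_div_iff₀ (by norm_num)]
    linarith)

theorem cu_nn (y : V n) : 0 ≤ cu n σ y := Real.smoothTransition.nonneg _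

theorem cu_le (y : V n) : cu n σ y ≤ 1 := Real.smoothTransition.le_one _

theorem rt_id {y : V n} (h : gy n σ y ≤ 302 / 100) : rt n σ y = y := by
  unfold rt
  rw [cu_zero h, zero_smul, add_zero]

/-- The radial form. -/
theorem rt_rad {y : V n} (hv : y - yc n σ ≠ 0) : rt n σ y - yc n σ =
    ((1 - cu n σ y) * en (y - yc n σ) + cu n σ y * ra σ (305 / 100)) • Ur (y - yc n σ) := by
  have h := en_Ur hv
  unfold rt dis
  have e : y + cu n σ y • (ra σ (305 / 100) • Ur (y - yc n σ) - (y - yc n σ)) - yc n σ =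
      (1 - cu n σ y) • (y - yc n σ) + cu n σ y • (ra σ (305 / 100) • Ur (y - yc n σ)) := by
    module
  rw [e]
  nth_rewrite 1 [← h]
  rw [smul_smul, smul_smul, ← add_smul]

theorem rt_en {y : V n} (hv : y - yc n σ ≠ 0) : en (rt n σ y - yc n σ) =
    (1 - cu n σ y) * en (y - yc n σ) + cu n σ y * ra σ (305 / 100) := by
  have h0 : 0 ≤ (1 - cu n σ y) * en (y - yc n σ) + cu n σ y * ra σ (305 / 100) := by
    have := cu_nn (n := n) (σ := σ) y
    have := cu_le (n := n) (σ := σ) y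
    have := en_nn (y - yc n σ)
    have := ra_nn σ (305 / 100)
    have : 0 ≤ 1 - cu n σ y := by linarith
    positivity
  rw [rt_rad hv, en_smul h0]
  have : en (Ur (y - yc n σ)) = 1 := by
    unfold en
    rw [Ur_sq hv, Real.sqrt_one]
  rw [this, mul_one]

theorem rt_lo (hn : 1 ≤ n) (hσ : 0 < σ) {y : V n} (h : 3 ≤ gy n σ y) : 3 ≤ gy n σ (rt n σ y) := by
  have hv := v_ne hn hσ (by linarith : 0 ≤ gy n σ y)
  rw [le_gy_iff hn hσ (by norm_num), rt_en hv]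
  have h1 := (le_gy_iff hn hσ (by norm_num) y).1 h
  have h2 := ra_mono hσ (by norm_num : (3 : ℝ) ≤ 305 / 100)
  have h3 := cu_nn (n := n) (σ := σ) y
  have h4 := cu_le (n := n) (σ := σ) y
  nlinarith

theorem rt_hi (hn : 1 ≤ n) (hσ : 0 < σ) (y : V n) : gy n σ (rt n σ y) ≤ 31 / 10 := by
  by_cases h0 : gy n σ y ≤ 302 / 100
  · rw [rt_id h0]
    linarith
  · rw [not_le] at h0
    have hv := v_ne hn hσ (by linarith : 0 ≤ gy n σ y)
    rw [gy_le_iff hn hσ (by norm_num), rt_en hv]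
    have h2 := ra_mono hσ (by norm_num : (305 / 100 : ℝ) ≤ 31 / 10)
    have h3 := cu_nn (n := n) (σ := σ) y
    have h4 := cu_le (n := n) (σ := σ) y
    by_cases h1 : gy n σ y ≤ 31 / 10
    · have h5 := (gy_le_iff hn hσ (by norm_num) y).1 h1
      nlinarith
    · rw [not_le] at h1
      rw [cu_one (by linarith)]
      linarith

theorem rt_top (hn : 1 ≤ n) (hσ : 0 < σ) {y : V n} (h : 308 / 100 ≤ gy n σ y) :
    gy n σ (rt n σ y) = 305 / 100 := by
  have hv := v_ne hn hσ (by linarith : 0 ≤ gy n σ y)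
  have h1 := rt_en hv
  rw [cu_one h] at h1
  refine le_antisymm ?_ ?_
  · rw [gy_le_iff hn hσ (by norm_num), h1]
    linarith
  · rw [le_gy_iff hn hσ (by norm_num), h1]
    linarith

theorem op_lt (n : ℕ) (σ a : ℝ) : IsOpen {y : V n | gy n σ y < a} :=
  isOpen_lt (gy_sm n σ).continuous continuous_const

theorem op_gt (n : ℕ) (σ a : ℝ) : IsOpen {y : V n | a < gy n σ y} :=
  isOpen_lt continuous_const (gy_sm n σ).continuous

theorem dis_sm (hn : 1 ≤ n) (hσ : 0 < σ) : ContDiffOn ℝ ∞ (dis n σ) {y | 3 < gy n σ y} := by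
  intro y hy
  have hv := v_ne hn hσ (by linarith [show (3 : ℝ) < gy n σ y from hy] : 0 ≤ gy n σ y)
  have h0 : ContDiffAt ℝ ∞ (fun y => y - yc n σ) y := contDiffAt_id.sub contDiffAt_const
  have h1 : ContDiffAt ℝ ∞ (fun y => Ur (y - yc n σ)) y := ContDiffAt.comp y (Ur_at hv) h0
  exact ((h1.const_smul _).sub h0).contDiffWithinAt

theorem rt_sm (hn : 1 ≤ n) (hσ : 0 < σ) : ContDiff ℝ ∞ (rt n σ) := by
  rw [contDiff_iff_contDiffAt]
  intro y
  by_cases h : gy n σ y < 302 / 100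
  · have h1 : rt n σ =ᶠ[𝓝 y] fun y => y := by
      filter_upwards [(op_lt n σ _).mem_nhds h] with w hw
      exact rt_id (le_of_lt hw)
    exact contDiffAt_id.congr_of_eventuallyEq h1
  · rw [not_lt] at h
    have h1 : y ∈ {y : V n | 3 < gy n σ y} := by
      show 3 < gy n σ y
      linarith
    exact contDiffAt_id.add ((cu_sm n σ).contDiffAt.smul
      ((dis_sm hn hσ).contDiffAt ((op_gt n σ 3).mem_nhds h1)))

/-! ## Derivatives -/

section der

variable {F : Type*} [NormedAddCommGroup F] [NormedSpace ℝ F]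

theorem it_aff2 {f : V n → F} {L : V n →L[ℝ] F} (h : ∀ x, HasFDerivAt f L x) (j : ℕ)
    (x : V n) : iteratedFDeriv ℝ (j + 2) f x = 0 := by
  have e : fderiv ℝ f = fun _ => L := funext fun x => (h x).fderiv
  have h1 : ‖iteratedFDeriv ℝ (j + 1) (fderiv ℝ f) x‖ = ‖iteratedFDeriv ℝ (j + 2) f x‖ :=
    norm_iteratedFDeriv_fderiv
  rw [e] at h1
  have h2 : iteratedFDeriv ℝ (j + 1) (fun _ : V n => L) x = 0 := by
    rw [iteratedFDeriv_const_of_ne (by omega)]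
    rfl
  rw [h2, norm_zero] at h1
  exact norm_eq_zero.1 h1.symm

theorem it_aff {f : V n → F} {L : V n →L[ℝ] F} (h : ∀ x, HasFDerivAt f L x) (hL : ‖L‖ ≤ 1)
    {j : ℕ} (hj : 1 ≤ j) (x : V n) : ‖iteratedFDeriv ℝ j f x‖ ≤ 1 := by
  obtain ⟨k, rfl⟩ := Nat.exists_eq_add_of_le hj
  rcases k with _ | k
  · have : ‖iteratedFDeriv ℝ (1 + 0) f x‖ = ‖fderiv ℝ f x‖ := norm_iteratedFDeriv_one f
    rw [this, (h x).fderiv]
    exact hL
  · have e : 1 + (k + 1) = k + 2 := by omega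
    rw [e, it_aff2 h k x, norm_zero]
    exact zero_le_one

end der

theorem it_id {j : ℕ} (hj : 1 ≤ j) (x : V n) : ‖iteratedFDeriv ℝ j (fun x : V n => x) x‖ ≤ 1 :=
  it_aff (L := ContinuousLinearMap.id ℝ (V n)) (fun x => hasFDerivAt_id x)
    ContinuousLinearMap.norm_id_le hj x

/-- The square of a coordinate. -/
theorem it_csq (c : ℝ) (i : Fin n) {j : ℕ} (hj : 1 ≤ j) (x : V n) :
    ‖iteratedFDeriv ℝ j (fun x : V n => (x i - c) * (x i - c)) x‖ ≤ 2 ^ j * (1 + |x i - c|) := by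
  set f : V n → ℝ := fun x => x i - c with hf
  have hd : ∀ x, HasFDerivAt f (ContinuousLinearMap.proj (R := ℝ) (φ := fun _ : Fin n => ℝ) i) x :=
    fun x => (hasFDerivAt_apply i x).sub_const c
  have hL : ‖(ContinuousLinearMap.proj (R := ℝ) (φ := fun _ : Fin n => ℝ) i)‖ ≤ 1 := by
    refine ContinuousLinearMap.opNorm_le_bound _ zero_le_one fun y => ?_
    rw [one_mul]
    exact norm_le_pi_norm y i
  have hs : ContDiff ℝ ∞ f := (contDiff_apply ℝ ℝ i).sub contDiff_const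
  have h1 := norm_iteratedFDeriv_mul_le (N := ∞) hs hs x (n := j) (by exact_mod_cast le_top)
  refine h1.trans ?_
  have h0 : ∀ k, ‖iteratedFDeriv ℝ k f x‖ ≤ 1 + |x i - c| := by
    intro k
    rcases Nat.eq_zero_or_pos k with h | h
    · rw [h, norm_iteratedFDeriv_zero, Real.norm_eq_abs]
      linarith
    · exact (it_aff hd hL h x).trans (by linarith [abs_nonneg (x i - c)])
  have h2 : ∀ k ∈ Finset.range (j + 1), (j.choose k : ℝ) * ‖iteratedFDeriv ℝ k f x‖ *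
      ‖iteratedFDeriv ℝ (j - k) f x‖ ≤ (j.choose k : ℝ) * (1 + |x i - c|) := by
    intro k hk
    rw [mul_assoc]
    refine mul_le_mul_of_nonneg_left ?_ (Nat.cast_nonneg _)
    rcases Nat.eq_zero_or_pos k with h | h
    · have h3 := it_aff hd hL (j := j - k) (by omega) x
      have h4 := h0 k
      nlinarith [norm_nonneg (iteratedFDeriv ℝ k f x), norm_nonneg (iteratedFDeriv ℝ (j - k) f x)]
    · have h3 := it_aff hd hL (j := k) h x
      have h4 := h0 (j - k)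
      nlinarith [norm_nonneg (iteratedFDeriv ℝ k f x), norm_nonneg (iteratedFDeriv ℝ (j - k) f x)]
  refine (Finset.sum_le_sum h2).trans (le_of_eq ?_)
  rw [← Finset.sum_mul]
  congr 1
  exact_mod_cast Nat.sum_range_choose j

/-- The derivatives of the level. -/
theorem it_gy (hn : 1 ≤ n) (hσ : 0 < σ) {j : ℕ} (hj : 1 ≤ j) (y : V n) :
    ‖iteratedFDeriv ℝ j (gy n σ) y‖ ≤ σ / 2 * (n * (2 ^ j * (1 + en (y - yc n σ)))) := by
  have e : gy n σ = fun y => (σ / 2) • ((∑ i, (y i - yc n σ i) * (y i - yc n σ i)) +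
      (-(σ⁻¹ ^ 2))) := by
    funext y
    rw [gy_eq hn hσ, smul_eq_mul]
    unfold HY.sq
    congr 1
    rw [← sub_eq_add_neg]
    congr 1
    refine Finset.sum_congr rfl fun i _ => ?_
    simp only [Pi.sub_apply]
    ring
  have hc : ∀ i : Fin n, ContDiff ℝ ∞ fun y : V n => (y i - yc n σ i) * (y i - yc n σ i) :=
    fun i => ((contDiff_apply ℝ ℝ i).sub contDiff_const).mul
      ((contDiff_apply ℝ ℝ i).sub contDiff_const)
  have hs : ContDiff ℝ ∞ fun y : V n => ∑ i, (y i - yc n σ i) * (y i - yc n σ i) :=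
    ContDiff.sum fun i _ => hc i
  have hj' : (j : ℕ∞ω) ≤ ∞ := by exact_mod_cast le_top
  rw [e, iteratedFDeriv_const_smul_apply' (((hs.add contDiff_const).of_le hj').contDiffAt),
    norm_smul, Real.norm_eq_abs, abs_of_pos (by positivity : 0 < σ / 2)]
  refine mul_le_mul_of_nonneg_left ?_ (by positivity)
  rw [fun_iteratedFDeriv_add_apply ((hs.of_le hj').contDiffAt) contDiffAt_const]
  have h0 : iteratedFDeriv ℝ j (fun _ : V n => -(σ⁻¹ ^ 2)) y = 0 := by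
    rw [iteratedFDeriv_const_of_ne (by omega)]
    rfl
  rw [h0, add_zero]
  have h1 : iteratedFDeriv ℝ j (fun y : V n => ∑ i, (y i - yc n σ i) * (y i - yc n σ i)) y =
      ∑ i, iteratedFDeriv ℝ j (fun y : V n => (y i - yc n σ i) * (y i - yc n σ i)) y := by
    exact iteratedFDeriv_fun_sum_apply (𝕜 := ℝ) (u := Finset.univ)
      (f := fun (i : Fin n) (y : V n) => (y i - yc n σ i) * (y i - yc n σ i))
      (fun i _ => ((hc i).of_le hj').contDiffAt)
  rw [h1]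
  refine (norm_sum_le _ _).trans ?_
  have h2 : ∀ i ∈ (Finset.univ : Finset (Fin n)),
      ‖iteratedFDeriv ℝ j (fun y : V n => (y i - yc n σ i) * (y i - yc n σ i)) y‖ ≤
        2 ^ j * (1 + en (y - yc n σ)) := by
    intro i _
    refine (it_csq _ i hj y).trans (mul_le_mul_of_nonneg_left ?_ (by positivity))
    have h3 : |y i - yc n σ i| ≤ ‖y - yc n σ‖ := norm_le_pi_norm (y - yc n σ) i
    linarith [norm_le_en (y - yc n σ)]
  refine (Finset.sum_le_sum h2).trans (le_of_eq ?_)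
  rw [Finset.sum_const, Finset.card_univ, Fintype.card_fin, nsmul_eq_mul]

end Vale.Agent.P088.R2.H871.INF
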