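import Vale.Agent.P088.R2.H871.INF.Ret

/-!
# P088, stage 3, Z-INF: the radial retraction, derivative bounds, rate units
-/

open Set Filter
open scoped ContDiff Topology

noncomputable section

namespace Vale.Agent.P088.R2.H871.INF

open Vale.Agent.P088.LR Vale.Agent.P088.HY Vale.Agent.P088.HY.T3 Vale.Agent.P088.HY.T4
open Vale.Agent.P088.R2.H867.EP (Stp)

variable {n : ℕ} {σ : ℝ}

theorem T_stp : Stp Real.smoothTransition where
  sm := Real.smoothTransition.contDiff
  nn := Real.smoothTransition.nonneg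
  le := Real.smoothTransition.le_one
  c0 := ⟨0, fun _ h => Real.smoothTransition.zero_of_nonpos h⟩
  c1 := ⟨1, fun _ h => Real.smoothTransition.one_of_one_le h⟩

/-- The cut-off has bounded derivatives (where `gy ≤ 3.1`). -/
theorem cu_bd {n : ℕ} (hn : 1 ≤ n) : ∃ A : ℕ → ℝ, (∀ j, 0 ≤ A j) ∧ ∀ σ : ℝ, 0 < σ → σ ≤ 1 / 10 →
    ∀ y : V n, gy n σ y ≤ 31 / 10 → ∀ j, ‖iteratedFDeriv ℝ j (cu n σ) y‖ ≤ A j := by
  choose B hB1 hB using T_stp.bdd
  set D : ℝ := 2 * (1 + 34 * n) with hD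
  refine ⟨fun j => (j.factorial : ℝ) * (∑ i ∈ Finset.range (j + 1), B i) * D ^ j, fun j => ?_, ?_⟩
  · have : 0 ≤ ∑ i ∈ Finset.range (j + 1), B i :=
      Finset.sum_nonneg fun i _ => zero_le_one.trans (hB1 i)
    positivity
  intro σ hσ hσ1 y hy j
  have h0 : 0 < σ⁻¹ := inv_pos.2 hσ
  have hw : ContDiff ℝ ∞ fun y : V n => (gy n σ y - 302 / 100) / (6 / 100) :=
    ((gy_sm n σ).sub contDiff_const).div_const _
  have h1 := norm_iteratedFDeriv_comp_le (g := Real.smoothTransition)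
    (f := fun y : V n => (gy n σ y - 302 / 100) / (6 / 100)) (n := j) (N := ∞)
    Real.smoothTransition.contDiff hw (by exact_mod_cast le_top) y
    (C := ∑ i ∈ Finset.range (j + 1), B i) (D := D) ?_ ?_
  · exact h1
  · intro i hi
    rw [norm_iteratedFDeriv_eq_norm_iteratedDeriv, Real.norm_eq_abs]
    refine (hB i _).trans ?_
    exact Finset.single_le_sum (f := fun i => B i) (fun i _ => zero_le_one.trans (hB1 i))
      (Finset.mem_range.2 (by omega))
  · intro i hi hij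
    have e : (fun y : V n => (gy n σ y - 302 / 100) / (6 / 100)) =
        fun y => (100 / 6 : ℝ) • (gy n σ y + (-(302 / 100))) := by
      funext y
      rw [smul_eq_mul]
      ring
    have hj' : (i : ℕ∞ω) ≤ ∞ := by exact_mod_cast le_top
    rw [e, iteratedFDeriv_const_smul_apply'
      ((((gy_sm n σ).add contDiff_const).of_le hj').contDiffAt),
      fun_iteratedFDeriv_add_apply (((gy_sm n σ).of_le hj').contDiffAt) contDiffAt_const]
    have h2 : iteratedFDeriv ℝ i (fun _ : V n => (-(302 / 100) : ℝ)) y = 0 := by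
      rw [iteratedFDeriv_const_of_ne (by omega)]
      rfl
    rw [h2, add_zero, norm_smul, Real.norm_eq_abs, abs_of_pos (by norm_num : (0 : ℝ) < 100 / 6)]
    have h3 := it_gy hn hσ hi y
    have h4 : en (y - yc n σ) ≤ σ⁻¹ + 31 / 10 :=
      ((gy_le_iff hn hσ (by norm_num) y).1 hy).trans (ra_le hσ (by norm_num))
    have h5 : σ * σ⁻¹ = 1 := mul_inv_cancel₀ hσ.ne'
    have h6 : σ / 2 * (1 + en (y - yc n σ)) ≤ 1 := by nlinarith
    have h7 : σ / 2 * (n * (2 ^ i * (1 + en (y - yc n σ)))) ≤ n * 2 ^ i := by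
      have : σ / 2 * (n * (2 ^ i * (1 + en (y - yc n σ)))) =
          (n * 2 ^ i) * (σ / 2 * (1 + en (y - yc n σ))) := by ring
      rw [this]
      have h8 : (0 : ℝ) ≤ n * 2 ^ i := by positivity
      nlinarith
    have h9 : 100 / 6 * (n * 2 ^ i : ℝ) ≤ D ^ i := by
      rw [hD, mul_pow]
      have h10 : (1 + 34 * (n : ℝ)) ≤ (1 + 34 * n) ^ i := by
        calc (1 + 34 * (n : ℝ)) = (1 + 34 * n) ^ 1 := (pow_one _).symm
          _ ≤ (1 + 34 * n) ^ i := pow_le_pow_right₀ (by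
            have : (0 : ℝ) ≤ n := Nat.cast_nonneg n
            linarith) hi
      have h11 : (0 : ℝ) < 2 ^ i := by positivity
      have h12 : (0 : ℝ) ≤ n := Nat.cast_nonneg n
      nlinarith [mul_le_mul_of_nonneg_left h10 h11.le]
    calc 100 / 6 * ‖iteratedFDeriv ℝ i (gy n σ) y‖ ≤ 100 / 6 * (n * 2 ^ i : ℝ) :=
          mul_le_mul_of_nonneg_left (h3.trans h7) (by norm_num)
      _ ≤ D ^ i := h9

theorem it_shift {F : Type*} [NormedAddCommGroup F] [NormedSpace ℝ F] (f : V n → F) (a : V n)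
    (j : ℕ) (y : V n) : iteratedFDeriv ℝ j (fun y => f (y - a)) y =
      iteratedFDeriv ℝ j f (y - a) := by
  have := iteratedFDeriv_comp_sub (𝕜 := ℝ) (f := f) j a y
  exact this

/-- The displacement and its derivatives, `3 < gy < 3.1`. -/
theorem dis_bd {n : ℕ} (hn : 1 ≤ n) : ∃ A : ℕ → ℝ, (∀ j, 0 ≤ A j) ∧ ∀ σ : ℝ, 0 < σ → σ ≤ 1 / 10 →
    ∀ y : V n, 3 < gy n σ y → gy n σ y < 31 / 10 →
      ∀ j, ‖iteratedFDeriv ℝ j (dis n σ) y‖ ≤ A j := by
  obtain ⟨C, hC1, hC⟩ := Ur_bd n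
  refine ⟨fun j => 2 * C j + 1, fun j => by linarith [hC1 j], ?_⟩
  intro σ hσ hσ1 y hy hy2 j
  have h0 : 0 < σ⁻¹ := inv_pos.2 hσ
  have hv := v_ne hn hσ (by linarith : 0 ≤ gy n σ y)
  have hs : ra σ (305 / 100) ≤ 2 * σ⁻¹ := by
    refine (ra_le hσ (by norm_num)).trans ?_
    have : (10 : ℝ) ≤ σ⁻¹ := by
      rw [le_inv_comm₀ (by norm_num) hσ]
      linarith
    linarith
  have he : σ⁻¹ ≤ en (y - yc n σ) :=
    (ra_ge hσ (by norm_num : (0 : ℝ) ≤ 3)).trans ((le_gy_iff hn hσ (by norm_num) y).1 hy.le)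
  rcases Nat.eq_zero_or_pos j with h | h
  · subst h
    rw [norm_iteratedFDeriv_zero]
    have h1 : dis n σ y = (ra σ (305 / 100) - en (y - yc n σ)) • Ur (y - yc n σ) := by
      unfold dis
      nth_rewrite 2 [← en_Ur hv]
      rw [sub_smul]
    rw [h1, norm_smul, Real.norm_eq_abs]
    have h2 : ‖Ur (y - yc n σ)‖ ≤ 1 := by
      refine (norm_le_en _).trans (le_of_eq ?_)
      unfold en
      rw [Ur_sq hv, Real.sqrt_one]
    have h3 : |ra σ (305 / 100) - en (y - yc n σ)| ≤ 1 := by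
      have a1 := (le_gy_iff hn hσ (by norm_num) y).1 hy.le
      have a2 := (gy_le_iff hn hσ (by norm_num) y).1 hy2.le
      have a3 := ra_mono hσ (by norm_num : (3 : ℝ) ≤ 305 / 100)
      have a4 := ra_mono hσ (by norm_num : (305 / 100 : ℝ) ≤ 31 / 10)
      have a5 : ra σ (31 / 10) - ra σ 3 ≤ 1 := by
        have b1 := ra_sq hσ (by norm_num : (0 : ℝ) ≤ 31 / 10)
        have b2 := ra_sq hσ (by norm_num : (0 : ℝ) ≤ 3)
        have b3 := ra_ge hσ (by norm_num : (0 : ℝ) ≤ 31 / 10)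
        have b4 := ra_ge hσ (by norm_num : (0 : ℝ) ≤ 3)
        nlinarith
      rw [abs_le]
      constructor <;> linarith
    have h4 := hC1 0
    calc |ra σ (305 / 100) - en (y - yc n σ)| * ‖Ur (y - yc n σ)‖ ≤ 1 * 1 :=
          mul_le_mul h3 h2 (norm_nonneg _) zero_le_one
      _ ≤ 2 * C 0 + 1 := by linarith
  · have hj' : (j : ℕ∞ω) ≤ ∞ := by exact_mod_cast le_top
    have c0 : ContDiffAt ℝ ∞ (fun y => y - yc n σ) y := contDiffAt_id.sub contDiffAt_const
    have c1 : ContDiffAt ℝ ∞ (fun y => Ur (y - yc n σ)) y := ContDiffAt.comp y (Ur_at hv) c0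
    have e : dis n σ = fun y => ra σ (305 / 100) • Ur (y - yc n σ) - (y - yc n σ) := rfl
    rw [e, fun_iteratedFDeriv_sub_apply ((c1.const_smul _).of_le hj') (c0.of_le hj'),
      iteratedFDeriv_const_smul_apply' (c1.of_le hj')]
    refine (norm_sub_le _ _).trans ?_
    rw [norm_smul, Real.norm_eq_abs, abs_of_nonneg (ra_nn _ _), it_shift, it_shift (fun y => y)]
    have h1 := hC j _ hv
    have h2 := it_id h (y - yc n σ)
    have h3 : ra σ (305 / 100) * (C j * (en (y - yc n σ))⁻¹ ^ j) ≤ 2 * C j := by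
      have hep : 0 < en (y - yc n σ) := en_pos hv
      have h4 : (en (y - yc n σ))⁻¹ ^ j ≤ (en (y - yc n σ))⁻¹ := by
        have h5 : (en (y - yc n σ))⁻¹ ≤ 1 := by
          refine inv_le_one_of_one_le₀ ?_
          have : (10 : ℝ) ≤ σ⁻¹ := by
            rw [le_inv_comm₀ (by norm_num) hσ]
            linarith
          linarith
        calc (en (y - yc n σ))⁻¹ ^ j ≤ (en (y - yc n σ))⁻¹ ^ 1 :=
              pow_le_pow_of_le_one (inv_nonneg.2 hep.le) h5 h
          _ = _ := pow_one _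
      have h6 : ra σ (305 / 100) * (en (y - yc n σ))⁻¹ ≤ 2 := by
        rw [← div_eq_mul_inv, div_le_iff₀ hep]
        linarith
      have hc := hC1 j
      calc ra σ (305 / 100) * (C j * (en (y - yc n σ))⁻¹ ^ j)
          ≤ ra σ (305 / 100) * (C j * (en (y - yc n σ))⁻¹) := by
            refine mul_le_mul_of_nonneg_left ?_ (ra_nn _ _)
            exact mul_le_mul_of_nonneg_left h4 (by linarith)
        _ = C j * (ra σ (305 / 100) * (en (y - yc n σ))⁻¹) := by ring
        _ ≤ C j * 2 := mul_le_mul_of_nonneg_left h6 (by linarith)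
        _ = 2 * C j := by ring
    have h7 := mul_le_mul_of_nonneg_left h1 (ra_nn σ (305 / 100))
    linarith

/-- **The derivatives of the retraction, unit chart.** -/
theorem rt_bd {n : ℕ} (hn : 1 ≤ n) : ∃ C : ℕ → ℝ, (∀ j, 1 ≤ C j) ∧ ∀ σ : ℝ, 0 < σ →
    σ ≤ 1 / 10 → ∀ j, 1 ≤ j → ∀ y : V n, ‖iteratedFDeriv ℝ j (rt n σ) y‖ ≤ C j := by
  obtain ⟨A, hA0, hA⟩ := cu_bd hn
  obtain ⟨B, hB0, hB⟩ := dis_bd hn
  obtain ⟨C, hC1, hC⟩ := Ur_bd n
  have hE : ∀ j, 0 ≤ ∑ i ∈ Finset.range (j + 1), (j.choose i : ℝ) * A i * B (j - i) :=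
    fun j => Finset.sum_nonneg fun i _ =>
      mul_nonneg (mul_nonneg (Nat.cast_nonneg _) (hA0 i)) (hB0 _)
  refine ⟨fun j => 1 + C j + ∑ i ∈ Finset.range (j + 1), (j.choose i : ℝ) * A i * B (j - i),
    fun j => by linarith [hC1 j, hE j], ?_⟩
  intro σ hσ hσ1 j hj y
  have hj' : (j : ℕ∞ω) ≤ ∞ := by exact_mod_cast le_top
  have h0 : 0 < σ⁻¹ := inv_pos.2 hσ
  by_cases ha : gy n σ y < 302 / 100
  · have h1 : rt n σ =ᶠ[𝓝 y] fun y => y := by
      filter_upwards [(op_lt n σ _).mem_nhds ha] with w hw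
      exact rt_id (le_of_lt hw)
    rw [(h1.iteratedFDeriv ℝ j).eq_of_nhds]
    refine (it_id hj y).trans ?_
    linarith [hC1 j, hE j]
  rw [not_lt] at ha
  have hv := v_ne hn hσ (by linarith : 0 ≤ gy n σ y)
  by_cases hb : 308 / 100 < gy n σ y
  · have h1 : rt n σ =ᶠ[𝓝 y] fun y => ra σ (305 / 100) • Ur (y - yc n σ) + yc n σ := by
      filter_upwards [(op_gt n σ _).mem_nhds hb] with w hw
      have hw' : 308 / 100 < gy n σ w := hw
      have h2 := rt_rad (v_ne hn hσ (by linarith : 0 ≤ gy n σ w))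
      rw [cu_one hw'.le, sub_self, zero_mul, zero_add, one_mul] at h2
      rw [← h2]
      abel
    have c0 : ContDiffAt ℝ ∞ (fun y => y - yc n σ) y := contDiffAt_id.sub contDiffAt_const
    have c1 : ContDiffAt ℝ ∞ (fun y => Ur (y - yc n σ)) y := ContDiffAt.comp y (Ur_at hv) c0
    rw [(h1.iteratedFDeriv ℝ j).eq_of_nhds, fun_iteratedFDeriv_add_apply
      ((c1.const_smul _).of_le hj') contDiffAt_const]
    have h2 : iteratedFDeriv ℝ j (fun _ : V n => yc n σ) y = 0 := by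
      rw [iteratedFDeriv_const_of_ne (by omega)]
      rfl
    rw [h2, add_zero, iteratedFDeriv_const_smul_apply' (c1.of_le hj'), norm_smul,
      Real.norm_eq_abs, abs_of_nonneg (ra_nn _ _), it_shift]
    have h3 := hC j _ hv
    have hep : 0 < en (y - yc n σ) := en_pos hv
    have h4 : ra σ (305 / 100) ≤ en (y - yc n σ) :=
      (le_gy_iff hn hσ (by norm_num) y).1 (by linarith)
    have h5 : (1 : ℝ) ≤ en (y - yc n σ) := by
      have : (10 : ℝ) ≤ σ⁻¹ := by
        rw [le_inv_comm₀ (by norm_num) hσ]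
        linarith
      have := ra_ge hσ (by norm_num : (0 : ℝ) ≤ 305 / 100)
      linarith
    have h6 : (en (y - yc n σ))⁻¹ ^ j ≤ (en (y - yc n σ))⁻¹ := by
      calc (en (y - yc n σ))⁻¹ ^ j ≤ (en (y - yc n σ))⁻¹ ^ 1 :=
            pow_le_pow_of_le_one (inv_nonneg.2 hep.le) (inv_le_one_of_one_le₀ h5) hj
        _ = _ := pow_one _
    have h7 : ra σ (305 / 100) * (en (y - yc n σ))⁻¹ ≤ 1 := by
      rw [← div_eq_mul_inv, div_le_one hep]
      exact h4
    have hc := hC1 j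
    calc ra σ (305 / 100) * ‖iteratedFDeriv ℝ j (Ur : V n → V n) (y - yc n σ)‖
        ≤ ra σ (305 / 100) * (C j * (en (y - yc n σ))⁻¹ ^ j) :=
          mul_le_mul_of_nonneg_left h3 (ra_nn _ _)
      _ ≤ ra σ (305 / 100) * (C j * (en (y - yc n σ))⁻¹) := by
          refine mul_le_mul_of_nonneg_left ?_ (ra_nn _ _)
          exact mul_le_mul_of_nonneg_left h6 (by linarith)
      _ = C j * (ra σ (305 / 100) * (en (y - yc n σ))⁻¹) := by ring
      _ ≤ C j * 1 := mul_le_mul_of_nonneg_left h7 (by linarith)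
      _ ≤ _ := by linarith [hE j]
  · rw [not_lt] at hb
    set O : Set (V n) := {y | 3 < gy n σ y} with hO
    have oO : IsOpen O := op_gt n σ 3
    have hyO : y ∈ O := by
      show 3 < gy n σ y
      linarith
    have e : rt n σ = fun y => y + cu n σ y • dis n σ y := rfl
    have cd : ContDiffAt ℝ ∞ (fun y => cu n σ y • dis n σ y) y :=
      (cu_sm n σ).contDiffAt.smul ((dis_sm hn hσ).contDiffAt (oO.mem_nhds hyO))
    have ci : ContDiffAt ℝ j (fun y : V n => y) y := contDiffAt_id.of_le hj'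
    rw [e, fun_iteratedFDeriv_add_apply ci (cd.of_le hj')]
    refine (norm_add_le _ _).trans ?_
    have h1 := it_id hj y
    have h2 : ‖iteratedFDeriv ℝ j (fun y => cu n σ y • dis n σ y) y‖ ≤
        ∑ i ∈ Finset.range (j + 1), (j.choose i : ℝ) * A i * B (j - i) := by
      rw [← iteratedFDerivWithin_of_isOpen j oO hyO]
      refine (norm_iteratedFDerivWithin_smul_le (N := ∞) (cu_sm n σ).contDiffOn (dis_sm hn hσ)
        oO.uniqueDiffOn hyO (by exact_mod_cast le_top)).trans ?_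
      refine Finset.sum_le_sum fun i hi => ?_
      rw [iteratedFDerivWithin_of_isOpen i oO hyO, iteratedFDerivWithin_of_isOpen (j - i) oO hyO]
      have h3 := hA σ hσ hσ1 y (by linarith) i
      have h4 := hB σ hσ hσ1 y hyO (by linarith) (j - i)
      have h5 : (0 : ℝ) ≤ j.choose i := Nat.cast_nonneg _
      exact mul_le_mul (mul_le_mul_of_nonneg_left h3 h5) h4 (norm_nonneg _)
        (mul_nonneg h5 (hA0 i))
    linarith [hC1 j]

end Vale.Agent.P088.R2.H871.INF
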